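import Mathlib

/-! # P339: 2-to-1 games with perfect completeness over the alphabets `[4]`, `[2]` -/

namespace Vale.Agent.Results.P339.SmallAlphabet

/-- a 2-to-1 game with alphabets `[2q]`, `[q]` -/
structure Game (q : ℕ) where
  /-- left vertices -/
  U : Type
  /-- right vertices -/
  V : Type
  /-- constraints -/
  E : Type
  /-- finitely many constraints -/
  fin : Fintype E
  /-- left vertex of a constraint -/
  u : E → U
  /-- right vertex of a constraint -/
  v : E → V
  /-- projection of a constraint -/
  π : E → Fin (2 * q) → Fin q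
  /-- the projections are 2-to-1 -/
  two : ∀ (e : E) (b : Fin q), (Finset.univ.filter fun a => π e a = b).card = 2
  /-- probabilities of the constraints -/
  μ : E → ℝ
  nonneg : ∀ e, 0 ≤ μ e
  sum_eq : ∑ e, μ e = 1

attribute [instance] Game.fin

variable {q : ℕ}

open Classical in
/-- the probability that a random constraint is satisfied by the labeling `A`, `B` -/
noncomputable def satisfied (g : Game q) (A : g.U → Fin (2 * q)) (B : g.V → Fin q) : ℝ :=
  ∑ e, if g.π e (A (g.u e)) = B (g.v e) then g.μ e else 0

/-- some labeling satisfies a random constraint with probability one -/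
def PerfectValue (g : Game q) : Prop := ∃ A B, satisfied g A B = 1

theorem satisfied_eq_one_iff (g : Game q) (A : g.U → Fin (2 * q)) (B : g.V → Fin q) :
    satisfied g A B = 1 ↔ ∀ e, 0 < g.μ e → g.π e (A (g.u e)) = B (g.v e) := by
  classical
  unfold satisfied
  constructor
  · intro h e he
    by_contra hne
    have h1 : ∑ e, (if g.π e (A (g.u e)) = B (g.v e) then g.μ e else 0) < ∑ e, g.μ e := by
      apply Finset.sum_lt_sum
      · intro e _
        split_ifs
        · exact le_rfl
        · exact g.nonneg e
      · exact ⟨e, Finset.mem_univ _, by rw [if_neg hne]; exact he⟩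
    rw [g.sum_eq] at h1
    linarith
  · intro h
    rw [← g.sum_eq]
    refine Finset.sum_congr rfl fun e _ => ?_
    split_ifs with h1
    · rfl
    · by_contra hne
      have h2 := g.nonneg e
      exact h1 (h e (lt_of_le_of_ne h2 hne))

/-- the coefficients, read off from the values of the projection at the first three letters -/
def bit (b : Fin 2) : ZMod 2 := if b = 0 then 0 else 1

/-- The linear equation over `𝔽_2` of a constraint: `x` are two unknowns for each left vertex, `y`
one unknown for each right vertex. -/
def Equation (f : Fin 4 → Fin 2) (x₀ x₁ y : ZMod 2) : Prop :=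
  (bit (f 1) - bit (f 0)) * x₀ + (bit (f 2) - bit (f 0)) * x₁ + bit (f 0) = y

/-- the letter with given bits -/
def letter (x₀ x₁ : ZMod 2) : Fin 4 :=
  if x₀ = 0 then (if x₁ = 0 then 0 else 2) else (if x₁ = 0 then 1 else 3)

theorem equation_iff (f : Fin 4 → Fin 2)
    (hf : ∀ b, (Finset.univ.filter fun a => f a = b).card = 2) (x₀ x₁ : ZMod 2) (b : Fin 2) :
    Equation f x₀ x₁ (bit b) ↔ f (letter x₀ x₁) = b := by
  unfold Equation
  revert f x₀ x₁ b
  decide

theorem letter_surj : ∀ a : Fin 4, ∃ x₀ x₁ : ZMod 2, letter x₀ x₁ = a := by decide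

theorem bit_surj : ∀ y : ZMod 2, ∃ b : Fin 2, bit b = y := by decide

/-- **Main result.** For every 2-to-1 game with alphabets `[4]` and `[2]`, some labeling satisfies
all constraints (of positive probability) if and only if the system of linear equations over `𝔽_2`,
one for each constraint, in the `2 |U| + |V|` unknowns `x`, `y`, is solvable. -/
theorem result (g : Game 2) : PerfectValue g ↔
    ∃ (x : g.U → Fin 2 → ZMod 2) (y : g.V → ZMod 2), ∀ e, 0 < g.μ e →
      Equation (g.π e) (x (g.u e) 0) (x (g.u e) 1) (y (g.v e)) := by
  unfold PerfectValue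
  simp only [satisfied_eq_one_iff]
  constructor
  · rintro ⟨A, B, h⟩
    choose x₀ x₁ hx using fun w : g.U => letter_surj (A w)
    refine ⟨fun w => ![x₀ w, x₁ w], fun w => bit (B w), fun e he => ?_⟩
    rw [equation_iff _ (g.two e)]
    simp only [Matrix.cons_val_zero, Matrix.cons_val_one]
    rw [hx]
    exact h e he
  · rintro ⟨x, y, h⟩
    choose B hB using fun w : g.V => bit_surj (y w)
    refine ⟨fun w => letter (x w 0) (x w 1), B, fun e he => ?_⟩
    rw [← equation_iff _ (g.two e), hB]
    exact h e he

end Vale.Agent.Results.P339.SmallAlphabet
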